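import Vale.Agent.P345.Compile
import Vale.Agent.P345.Encode
import Vale.Agent.P345.Pell

open MvPolynomial

namespace Vale.Agent.Results.P345.LogFold

/-- Every r.e. set has Diophantine representations with at most `log₂ H / k` solutions of size
at most `H`, for every `k`. -/
theorem result (n : ℕ) (S : Set (Fin n → ℕ)) (hS : REPred fun a => a ∈ S) (k : ℕ) :
    ∃ (m : ℕ) (P : MvPolynomial (Fin n ⊕ Fin m) ℤ),
      (∀ a : Fin n → ℕ, a ∈ S ↔
        ∃ w : Fin m → ℕ, eval (fun i => ((Sum.elim a w i : ℕ) : ℤ)) P = 0) ∧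
      ∀ (a : Fin n → ℕ) (H : ℕ), k * Set.ncard {w : Fin m → ℕ | (∀ i, w i ≤ H) ∧
        eval (fun i => ((Sum.elim a w i : ℕ) : ℤ)) P = 0} ≤ Nat.log 2 H :=
  Vale.Agent.P345.logFold_of_specs Vale.Agent.P345.compile Vale.Agent.P345.encode
    Vale.Agent.P345.pell S hS k

end Vale.Agent.Results.P345.LogFold
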